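import Mathlib
import Vale.Agent.Lib.P302.Defs
import Vale.Agent.Lib.P302.Check
import Vale.Agent.Lib.P302.Bridge
import Vale.Agent.Lib.P302.TwoThree
import Vale.Agent.Lib.P302.PadBig
import Vale.Agent.Lib.P302.Frame

/-!
# A weight certificate for instances made of hosts, absorbers, a core of thirds and guests

The items are `hosts ++ (abs ++ core) ++ guests`.  Hosts have size at least `hmin > L / 2`;
the absorbers have size in `[t2, hmin)`, the core items size in `[t, t2)`, with `hmin + t > L`;
guests have size in `[gmin, gmax]` with `gmax < t`.  In a packing into `m + r` bins exactly `m`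
bins hold a host (together with at most two guests) and the other at most `r` bins hold all
absorbers and all core items.  Give a guest the weight `wg`, a core item the weight `wt` and an
absorber `x` the weight `wf x`.  A finite check over all sublists of the absorbers and all
numbers of core items and guests shows that a bin without host has weight at most `W`, except
that a bin made of exactly three core items may have weight `W + β`.  The number of bins made
of three core items is smaller than `k` (exchange lemma and the exhaustive search `part3` on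
the `3 * k` smallest core items).  Summing the weights bounds the number of guests in the bins
without host.  The bins with a host, padded with items of size `0`, together with triples made
of the remaining guests, `j` additional items of size `ph` and zeros, form a partition into
`m + q` triples, which the search `part3` excludes.
-/

namespace Vale.Agent.Lib.P302.H19D

open Vale.Agent.Lib.P302

/-- the weight of an item: guests (size below `t`) have weight `wg`, core items (size in
`[t, t2)`) have weight `wt`, the other items `x` have weight `wf x`. -/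
def wgt (t t2 wg wt : ℕ) (wf : ℕ → ℕ) (x : ℕ) : ℕ :=
  if x < t then wg else if x < t2 then wt else wf x

theorem sum_map_of_const (s : Multiset ℕ) (f : ℕ → ℕ) (c : ℕ) (h : ∀ x ∈ s, f x = c) :
    (s.map f).sum = Multiset.card s * c := by
  induction s using Multiset.induction_on with
  | empty => simp
  | cons a s ih =>
    rw [Multiset.map_cons, Multiset.sum_cons, Multiset.card_cons,
      h a (Multiset.mem_cons_self a s), ih (fun x hx => h x (Multiset.mem_cons_of_mem hx))]
    ring

theorem exists_sublist_of_le (s : Multiset ℕ) (l : List ℕ) (h : s ≤ (l : Multiset ℕ)) :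
    ∃ l' ∈ l.sublists, s = (l' : Multiset ℕ) := by
  induction s using Quotient.inductionOn with
  | _ l₁ =>
    have h' : l₁.Subperm l := Multiset.coe_le.mp h
    obtain ⟨l', hp, hs⟩ := h'
    exact ⟨l', List.mem_sublists.mpr hs, Multiset.coe_eq_coe.mpr hp.symm⟩

theorem le_join_of_mem (P : Multiset (Multiset ℕ)) (b : Multiset ℕ) (hb : b ∈ P) :
    b ≤ P.join := by
  obtain ⟨P', rfl⟩ := Multiset.exists_cons_of_mem hb
  rw [Multiset.join_cons]
  exact Multiset.le_add_right b P'.join

theorem sum_map_join (f : ℕ → ℕ) (P : Multiset (Multiset ℕ)) :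
    (P.join.map f).sum = (P.map (fun b => (b.map f).sum)).sum := by
  induction P using Multiset.induction_on with
  | empty => simp
  | cons b P ih =>
    rw [Multiset.join_cons, Multiset.map_add, Multiset.sum_add, ih, Multiset.map_cons,
      Multiset.sum_cons]

/-- A bin whose items below `t` have size at least `gmin` and whose items of size at least
`t2` are absorbers: weight inequality. -/
theorem bin_weight (L t t2 gmin W β wg wt : ℕ) (wf : ℕ → ℕ) (abs : List ℕ)
    (ht0 : 0 < t) (hg0 : 0 < gmin)
    (hchk : ∀ S ∈ abs.sublists, ∀ a ∈ List.range (L / t + 1),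
      ∀ g ∈ List.range (L / gmin + 1), S.sum + a * t + g * gmin ≤ L →
        (S.map wf).sum + a * wt + g * wg ≤ W + (if S = [] ∧ a = 3 ∧ g = 0 then β else 0))
    (b : Multiset ℕ)
    (hmem : ∀ x ∈ b, x < t → gmin ≤ x) (hb : b.sum ≤ L)
    (habs : (b.filter (fun x => ¬ x < t)).filter (fun x => ¬ x < t2) ≤ (abs : Multiset ℕ)) :
    (b.map (wgt t t2 wg wt wf)).sum
      ≤ W + (if Multiset.card ((b.filter (fun x => ¬ x < t)).filter (fun x => x < t2)) = 3
              ∧ Multiset.card (b.filter (fun x => x < t)) = 0
              ∧ Multiset.card ((b.filter (fun x => ¬ x < t)).filter (fun x => ¬ x < t2)) = 0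
             then β else 0) := by
  obtain ⟨l', hl', hS⟩ := exists_sublist_of_le _ abs habs
  have hbGN : b = b.filter (fun x => x < t) + b.filter (fun x => ¬ x < t) :=
    (Multiset.filter_add_not (fun x => x < t) b).symm
  have hNCS : b.filter (fun x => ¬ x < t)
      = (b.filter (fun x => ¬ x < t)).filter (fun x => x < t2)
        + (b.filter (fun x => ¬ x < t)).filter (fun x => ¬ x < t2) :=
    (Multiset.filter_add_not (fun x => x < t2) _).symm
  -- sizes
  have hs1 := sum_filter_add (fun x => x < t) b
  have hs2 := sum_filter_add (fun x => x < t2) (b.filter (fun x => ¬ x < t))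
  have hg := card_mul_le_sum gmin (b.filter (fun x => x < t))
    (fun x hx => hmem x (Multiset.mem_filter.mp hx).1 (Multiset.mem_filter.mp hx).2)
  have ha := card_mul_le_sum t ((b.filter (fun x => ¬ x < t)).filter (fun x => x < t2))
    (fun x hx => by
      have := (Multiset.mem_filter.mp (Multiset.mem_filter.mp hx).1).2
      omega)
  have hSsum : ((b.filter (fun x => ¬ x < t)).filter (fun x => ¬ x < t2)).sum = l'.sum := by
    rw [hS, Multiset.sum_coe]
  have hScard : Multiset.card ((b.filter (fun x => ¬ x < t)).filter (fun x => ¬ x < t2))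
      = l'.length := by
    rw [hS, Multiset.coe_card]
  -- weights
  have hw1 : (b.map (wgt t t2 wg wt wf)).sum
      = ((b.filter (fun x => x < t)).map (wgt t t2 wg wt wf)).sum
        + ((b.filter (fun x => ¬ x < t)).map (wgt t t2 wg wt wf)).sum := by
    conv_lhs => rw [hbGN]
    rw [Multiset.map_add, Multiset.sum_add]
  have hw2 : ((b.filter (fun x => ¬ x < t)).map (wgt t t2 wg wt wf)).sum
      = (((b.filter (fun x => ¬ x < t)).filter (fun x => x < t2)).map
          (wgt t t2 wg wt wf)).sum
        + (((b.filter (fun x => ¬ x < t)).filter (fun x => ¬ x < t2)).map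
          (wgt t t2 wg wt wf)).sum := by
    conv_lhs => rw [hNCS]
    rw [Multiset.map_add, Multiset.sum_add]
  have hwG : ((b.filter (fun x => x < t)).map (wgt t t2 wg wt wf)).sum
      = Multiset.card (b.filter (fun x => x < t)) * wg := by
    apply sum_map_of_const
    intro x hx
    have := (Multiset.mem_filter.mp hx).2
    simp [wgt, this]
  have hwC : (((b.filter (fun x => ¬ x < t)).filter (fun x => x < t2)).map
      (wgt t t2 wg wt wf)).sum
      = Multiset.card ((b.filter (fun x => ¬ x < t)).filter (fun x => x < t2)) * wt := by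
    apply sum_map_of_const
    intro x hx
    have h1 := (Multiset.mem_filter.mp hx).2
    have h2 := (Multiset.mem_filter.mp (Multiset.mem_filter.mp hx).1).2
    simp [wgt, h1, h2]
  have hwS : (((b.filter (fun x => ¬ x < t)).filter (fun x => ¬ x < t2)).map
      (wgt t t2 wg wt wf)).sum = (l'.map wf).sum := by
    have hcongr : ((b.filter (fun x => ¬ x < t)).filter (fun x => ¬ x < t2)).map
        (wgt t t2 wg wt wf)
        = ((b.filter (fun x => ¬ x < t)).filter (fun x => ¬ x < t2)).map wf := by
      apply Multiset.map_congr rfl
      intro x hx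
      have h1 := (Multiset.mem_filter.mp hx).2
      have h2 := (Multiset.mem_filter.mp (Multiset.mem_filter.mp hx).1).2
      simp [wgt, h1, h2]
    rw [hcongr, hS, Multiset.map_coe, Multiset.sum_coe]
  have hbL := hb
  have hacap : Multiset.card ((b.filter (fun x => ¬ x < t)).filter (fun x => x < t2))
      ≤ L / t := by
    rw [Nat.le_div_iff_mul_le ht0]
    omega
  have hgcap : Multiset.card (b.filter (fun x => x < t)) ≤ L / gmin := by
    rw [Nat.le_div_iff_mul_le hg0]
    omega
  have hfin := hchk l' hl'
    (Multiset.card ((b.filter (fun x => ¬ x < t)).filter (fun x => x < t2)))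
    (List.mem_range.mpr (by omega))
    (Multiset.card (b.filter (fun x => x < t)))
    (List.mem_range.mpr (by omega))
    (by omega)
  have hl0 : l' = [] ↔ l'.length = 0 := List.length_eq_zero_iff.symm
  by_cases hT : Multiset.card ((b.filter (fun x => ¬ x < t)).filter (fun x => x < t2)) = 3
      ∧ Multiset.card (b.filter (fun x => x < t)) = 0
      ∧ Multiset.card ((b.filter (fun x => ¬ x < t)).filter (fun x => ¬ x < t2)) = 0
  · rw [if_pos hT]
    have hc : l' = [] ∧ Multiset.card ((b.filter (fun x => ¬ x < t)).filter
        (fun x => x < t2)) = 3 ∧ Multiset.card (b.filter (fun x => x < t)) = 0 :=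
      ⟨hl0.mpr (by omega), hT.1, hT.2.1⟩
    rw [if_pos hc] at hfin
    omega
  · rw [if_neg hT]
    have hc : ¬ (l' = [] ∧ Multiset.card ((b.filter (fun x => ¬ x < t)).filter
        (fun x => x < t2)) = 3 ∧ Multiset.card (b.filter (fun x => x < t)) = 0) := by
      rintro ⟨h1, h2, h3⟩
      exact hT ⟨h2, h3, by rw [hScard]; exact hl0.mp h1⟩
    rw [if_neg hc] at hfin
    omega

/-- Weight inequality for a family of bins. -/
theorem free_weight (L t t2 gmin W β wg wt : ℕ) (wf : ℕ → ℕ) (abs : List ℕ)
    (ht0 : 0 < t) (hg0 : 0 < gmin)
    (hchk : ∀ S ∈ abs.sublists, ∀ a ∈ List.range (L / t + 1),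
      ∀ g ∈ List.range (L / gmin + 1), S.sum + a * t + g * gmin ≤ L →
        (S.map wf).sum + a * wt + g * wg ≤ W + (if S = [] ∧ a = 3 ∧ g = 0 then β else 0)) :
    ∀ (PF : Multiset (Multiset ℕ)),
    (∀ b ∈ PF, ∀ x ∈ b, x < t → gmin ≤ x) → (∀ b ∈ PF, b.sum ≤ L) →
    (∀ b ∈ PF, (b.filter (fun x => ¬ x < t)).filter (fun x => ¬ x < t2)
      ≤ (abs : Multiset ℕ)) →
    (PF.join.map (wgt t t2 wg wt wf)).sum
      ≤ W * Multiset.card PF + β * Multiset.card (PF.filter (fun b =>
          Multiset.card ((b.filter (fun x => ¬ x < t)).filter (fun x => x < t2)) = 3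
            ∧ Multiset.card (b.filter (fun x => x < t)) = 0
            ∧ Multiset.card ((b.filter (fun x => ¬ x < t)).filter (fun x => ¬ x < t2))
              = 0)) := by
  intro PF
  induction PF using Multiset.induction_on with
  | empty => intro _ _ _; simp
  | cons b PF ih =>
    intro hmem hb habs
    have h1 := bin_weight L t t2 gmin W β wg wt wf abs ht0 hg0 hchk b
      (hmem b (Multiset.mem_cons_self b PF)) (hb b (Multiset.mem_cons_self b PF))
      (habs b (Multiset.mem_cons_self b PF))
    have h2 := ih (fun b' hb' => hmem b' (Multiset.mem_cons_of_mem hb'))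
      (fun b' hb' => hb b' (Multiset.mem_cons_of_mem hb'))
      (fun b' hb' => habs b' (Multiset.mem_cons_of_mem hb'))
    rw [Multiset.join_cons, Multiset.map_add, Multiset.sum_add, Multiset.card_cons]
    by_cases hT : Multiset.card ((b.filter (fun x => ¬ x < t)).filter (fun x => x < t2)) = 3
        ∧ Multiset.card (b.filter (fun x => x < t)) = 0
        ∧ Multiset.card ((b.filter (fun x => ¬ x < t)).filter (fun x => ¬ x < t2)) = 0
    · rw [Multiset.filter_cons_of_pos (p := fun b =>
        Multiset.card ((b.filter (fun x => ¬ x < t)).filter (fun x => x < t2)) = 3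
          ∧ Multiset.card (b.filter (fun x => x < t)) = 0
          ∧ Multiset.card ((b.filter (fun x => ¬ x < t)).filter (fun x => ¬ x < t2)) = 0)
        PF hT, Multiset.card_cons]
      rw [if_pos hT] at h1
      have e1 : W * (Multiset.card PF + 1) = W * Multiset.card PF + W := by ring
      have e2 : ∀ c : ℕ, β * (c + 1) = β * c + β := fun c => by ring
      rw [e1, e2]
      omega
    · rw [Multiset.filter_cons_of_neg (p := fun b =>
        Multiset.card ((b.filter (fun x => ¬ x < t)).filter (fun x => x < t2)) = 3
          ∧ Multiset.card (b.filter (fun x => x < t)) = 0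
          ∧ Multiset.card ((b.filter (fun x => ¬ x < t)).filter (fun x => ¬ x < t2)) = 0)
        PF hT]
      rw [if_neg hT] at h1
      have e1 : W * (Multiset.card PF + 1) = W * Multiset.card PF + W := by ring
      rw [e1]
      omega

/-- If the `3 * k` smallest core items cannot be partitioned into `k` fitting triples, every
family of disjoint fitting triples of core items has fewer than `k` members. -/
theorem triple_bins_lt (L k fuelF : ℕ) (coreBig coreSmall : List ℕ)
    (hsorted : (coreBig ++ coreSmall).Pairwise (· ≥ ·))
    (hlen : coreSmall.length = 3 * k)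
    (hsearch : part3 L fuelF coreSmall (k * L - coreSmall.sum) = false)
    (T : Multiset (Multiset ℕ))
    (hT3 : ∀ b ∈ T, Multiset.card b = 3 ∧ b.sum ≤ L)
    (hTle : T.join ≤ ((coreBig ++ coreSmall : List ℕ) : Multiset ℕ)) :
    Multiset.card T < k := by
  by_contra hcon
  have hk : k ≤ Multiset.card T := by omega
  obtain ⟨Q, hQle, hQk⟩ := exists_le_card T k hk
  have hTr : HasTriples L k ((coreBig ++ coreSmall : List ℕ) : Multiset ℕ) :=
    ⟨Q, hQk, fun b hbQ => hT3 b (Multiset.mem_of_le hQle hbQ),
      le_trans (join_le_join hQle) hTle⟩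
  obtain ⟨R, hRk, hR3, hRle⟩ := hasTriples_small L k coreSmall coreBig hsorted (by omega) hTr
  have hRcard : Multiset.card R.join = 3 * k := by
    rw [card_join_triples R (fun b hb => (hR3 b hb).1), hRk]
  have hReq : R.join = (coreSmall : Multiset ℕ) :=
    Multiset.eq_of_le_of_card_le hRle (by rw [hRcard]; simp [hlen])
  have hsm : coreSmall.Pairwise (· ≥ ·) :=
    hsorted.sublist (List.sublist_append_right coreBig coreSmall)
  have h8 := part3_complete L fuelF coreSmall (k * L - coreSmall.sum) hsm
    ⟨R, hReq, hR3, by rw [hRk]; omega⟩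
  rw [hsearch] at h8
  exact Bool.false_ne_true h8

/-- Hosts, absorbers, a core and guests, with an abstract bound `k` for the number of disjoint
fitting triples of core items: no packing into `m + r` bins. -/
theorem no_packing_device_aux (L m r q j k n fuel hmin t t2 gmin gmax ph W β wg wt : ℕ)
    (wf : ℕ → ℕ) (hosts abs core guests : List ℕ)
    (hhost : ∀ h ∈ hosts, hmin ≤ h)
    (habs : ∀ f ∈ abs, t2 ≤ f ∧ f < hmin)
    (hcore : ∀ f ∈ core, t ≤ f ∧ f < t2)
    (hguest : ∀ g ∈ guests, gmin ≤ g ∧ g ≤ gmax)
    (h0 : 0 < gmin) (htt : t ≤ t2) (ht : t2 ≤ hmin) (h1 : L < 2 * hmin) (h2 : L < hmin + t)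
    (h3 : L < hmin + 3 * gmin) (h4 : gmax < t) (hph : gmax ≤ ph) (h5 : 3 * ph ≤ L)
    (hchk : ∀ S ∈ abs.sublists, ∀ a ∈ List.range (L / t + 1),
      ∀ g ∈ List.range (L / gmin + 1), S.sum + a * t + g * gmin ≤ L →
        (S.map wf).sum + a * wt + g * wg ≤ W + (if S = [] ∧ a = 3 ∧ g = 0 then β else 0))
    (hm : hosts.length = m) (hn : core.length = n)
    (htriples : ∀ T : Multiset (Multiset ℕ), (∀ b ∈ T, Multiset.card b = 3 ∧ b.sum ≤ L) →
      T.join ≤ (core : Multiset ℕ) → Multiset.card T < k)
    (hQ : W * r + β * k + wg * j + 1 ≤ wg * (3 * q + 1) + (abs.map wf).sum + n * wt + β)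
    (hj : j ≤ 3 * q)
    (hsorted : (hosts ++ List.replicate j ph ++ guests
      ++ List.replicate (2 * m + 3 * q - j - guests.length) 0).Pairwise (· ≥ ·))
    (hsearch : part3 L fuel
      (hosts ++ List.replicate j ph ++ guests
        ++ List.replicate (2 * m + 3 * q - j - guests.length) 0)
      ((m + q) * L - (hosts ++ List.replicate j ph ++ guests).sum) = false)
    (P : Multiset (Multiset ℕ))
    (hP : P.join = ((hosts ++ (abs ++ core) ++ guests : List ℕ) : Multiset ℕ))
    (hb : ∀ b ∈ P, b.sum ≤ L) : m + r + 1 ≤ Multiset.card P := by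
  by_contra hlt
  have hle : Multiset.card P ≤ m + r := by omega
  have ht0 : 0 < t := by omega
  have hdev : ∀ f ∈ abs ++ core, t ≤ f ∧ f < hmin := by
    intro f hf
    rcases List.mem_append.mp hf with h | h
    · have := habs f h
      omega
    · have := hcore f h
      omega
  have hPs : P.join = (hosts : Multiset ℕ) + ((abs ++ core : List ℕ) : Multiset ℕ)
      + (guests : Multiset ℕ) := by
    rw [hP, Multiset.coe_add, Multiset.coe_add]
  have hmemJ : ∀ b ∈ P, ∀ x ∈ b, x ∈ hosts ∨ x ∈ abs ++ core ∨ x ∈ guests := by
    intro b hbP x hx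
    have hxj : x ∈ P.join := Multiset.mem_join.mpr ⟨b, hbP, hx⟩
    rw [hP] at hxj
    have : x ∈ hosts ++ (abs ++ core) ++ guests := by simpa using hxj
    rcases List.mem_append.mp this with h | h
    · rcases List.mem_append.mp h with h | h
      · exact Or.inl h
      · exact Or.inr (Or.inl h)
    · exact Or.inr (Or.inr h)
  -- the filters of the instance
  have hJH : P.join.filter (fun x => hmin ≤ x) = (hosts : Multiset ℕ) := by
    rw [hPs, Multiset.filter_add, Multiset.filter_add]
    have e1 : (hosts : Multiset ℕ).filter (fun x => hmin ≤ x) = (hosts : Multiset ℕ) := by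
      rw [Multiset.filter_eq_self]
      intro a ha
      exact hhost a (by simpa using ha)
    have e2 : ((abs ++ core : List ℕ) : Multiset ℕ).filter (fun x => hmin ≤ x) = 0 := by
      rw [Multiset.filter_eq_nil]
      intro a ha
      have := (hdev a (by simpa using ha)).2
      omega
    have e3 : (guests : Multiset ℕ).filter (fun x => hmin ≤ x) = 0 := by
      rw [Multiset.filter_eq_nil]
      intro a ha
      have := (hguest a (by simpa using ha)).2
      omega
    rw [e1, e2, e3, add_zero, add_zero]
  have hJG : P.join.filter (fun x => x < t) = (guests : Multiset ℕ) := by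
    rw [hPs, Multiset.filter_add, Multiset.filter_add]
    have e1 : (hosts : Multiset ℕ).filter (fun x => x < t) = 0 := by
      rw [Multiset.filter_eq_nil]
      intro a ha
      have := hhost a (by simpa using ha)
      omega
    have e2 : ((abs ++ core : List ℕ) : Multiset ℕ).filter (fun x => x < t) = 0 := by
      rw [Multiset.filter_eq_nil]
      intro a ha
      have := (hdev a (by simpa using ha)).1
      omega
    have e3 : (guests : Multiset ℕ).filter (fun x => x < t) = (guests : Multiset ℕ) := by
      rw [Multiset.filter_eq_self]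
      intro a ha
      have := (hguest a (by simpa using ha)).2
      omega
    rw [e1, e2, e3, zero_add, zero_add]
  have hJN : P.join.filter (fun x => ¬ x < t)
      = (hosts : Multiset ℕ) + ((abs ++ core : List ℕ) : Multiset ℕ) := by
    rw [hPs, Multiset.filter_add, Multiset.filter_add]
    have e1 : (hosts : Multiset ℕ).filter (fun x => ¬ x < t) = (hosts : Multiset ℕ) := by
      rw [Multiset.filter_eq_self]
      intro a ha
      have := hhost a (by simpa using ha)
      omega
    have e2 : ((abs ++ core : List ℕ) : Multiset ℕ).filter (fun x => ¬ x < t)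
        = ((abs ++ core : List ℕ) : Multiset ℕ) := by
      rw [Multiset.filter_eq_self]
      intro a ha
      have := (hdev a (by simpa using ha)).1
      omega
    have e3 : (guests : Multiset ℕ).filter (fun x => ¬ x < t) = 0 := by
      rw [Multiset.filter_eq_nil]
      intro a ha
      have := (hguest a (by simpa using ha)).2
      simp only [not_not]
      omega
    rw [e1, e2, e3, add_zero]
  -- every bin holds at most one host
  have hone : ∀ b ∈ P, Multiset.card (b.filter (fun x => hmin ≤ x)) ≤ 1 := by
    intro b hbP
    by_contra hcon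
    have h2' : 2 ≤ Multiset.card (b.filter (fun x => hmin ≤ x)) := by omega
    have hsum := card_mul_le_sum hmin (b.filter (fun x => hmin ≤ x))
      (fun x hx => (Multiset.mem_filter.mp hx).2)
    have hs := sum_filter_add (fun x => hmin ≤ x) b
    have hbL := hb b hbP
    have hmul : 2 * hmin ≤ Multiset.card (b.filter (fun x => hmin ≤ x)) * hmin :=
      Nat.mul_le_mul_right _ h2'
    omega
  have hcount : (P.map (fun b => Multiset.card (b.filter (fun x => hmin ≤ x)))).sum = m := by
    rw [← card_filter_join, hJH]
    simpa using hm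
  -- the bins with a host and the bins without
  set PH := P.filter (fun b => Multiset.card (b.filter (fun x => hmin ≤ x)) = 1) with hPH
  set PF := P.filter (fun b => ¬ Multiset.card (b.filter (fun x => hmin ≤ x)) = 1) with hPF
  have hsplitP : PH + PF = P := Multiset.filter_add_not _ P
  have hcardH : Multiset.card PH = m := by
    rw [hPH, ← sum_map_eq_card_filter P _ hone]
    exact hcount
  have hcardF : Multiset.card PF ≤ r := by
    have : Multiset.card P = Multiset.card PH + Multiset.card PF := by
      rw [← hsplitP, Multiset.card_add]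
    omega
  have hjoinP : P.join = PH.join + PF.join := by
    rw [← hsplitP, Multiset.join_add]
  -- bins with a host: the other items are at most two guests
  have hHbin : ∀ b ∈ PH, (∀ x ∈ b, ¬ hmin ≤ x → gmin ≤ x ∧ x < t) ∧ Multiset.card b ≤ 3 := by
    intro b hbH
    obtain ⟨hbP, hb1⟩ := Multiset.mem_filter.mp hbH
    obtain ⟨h, hh⟩ := Multiset.card_eq_one.mp hb1
    have hhm : hmin ≤ h := by
      have : h ∈ b.filter (fun x => hmin ≤ x) := by rw [hh]; simp
      exact (Multiset.mem_filter.mp this).2
    have hs := sum_filter_add (fun x => hmin ≤ x) b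
    rw [hh, Multiset.sum_singleton] at hs
    have hbL := hb b hbP
    have hrest : ∀ x ∈ b, ¬ hmin ≤ x → gmin ≤ x ∧ x < t := by
      intro x hx hxh
      have hxr : x ∈ b.filter (fun x => ¬ hmin ≤ x) := Multiset.mem_filter.mpr ⟨hx, hxh⟩
      have hxs : x ≤ (b.filter (fun x => ¬ hmin ≤ x)).sum := Multiset.le_sum_of_mem hxr
      have hxt : x < t := by omega
      refine ⟨?_, hxt⟩
      rcases hmemJ b hbP x hx with h' | h' | h'
      · exact absurd (hhost x h') hxh
      · have := (hdev x h').1
        omega
      · exact (hguest x h').1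
    refine ⟨hrest, ?_⟩
    have hc := card_filter_add (fun x => hmin ≤ x) b
    rw [hh, Multiset.card_singleton] at hc
    have hsum := card_mul_le_sum gmin (b.filter (fun x => ¬ hmin ≤ x))
      (fun x hx => (hrest x (Multiset.mem_filter.mp hx).1 (Multiset.mem_filter.mp hx).2).1)
    by_contra hcon
    have h8 : 3 ≤ Multiset.card (b.filter (fun x => ¬ hmin ≤ x)) := by omega
    have hmul : 3 * gmin ≤ Multiset.card (b.filter (fun x => ¬ hmin ≤ x)) * gmin :=
      Nat.mul_le_mul_right _ h8
    omega
  -- bins without a host hold no host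
  have hFH : PF.join.filter (fun x => hmin ≤ x) = 0 := by
    apply Multiset.card_eq_zero.mp
    rw [card_filter_join, Multiset.sum_eq_zero_iff]
    intro n' hn'
    obtain ⟨b, hbF, rfl⟩ := Multiset.mem_map.mp hn'
    obtain ⟨hbP, hb1⟩ := Multiset.mem_filter.mp hbF
    have := hone b hbP
    omega
  have hHH : PH.join.filter (fun x => hmin ≤ x) = (hosts : Multiset ℕ) := by
    have h9 := hJH
    rw [hjoinP, Multiset.filter_add, hFH, add_zero] at h9
    exact h9
  have hHN : PH.join.filter (fun x => ¬ x < t) = (hosts : Multiset ℕ) := by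
    rw [← hHH]
    apply Multiset.filter_congr
    intro x hx
    obtain ⟨b, hbH, hxb⟩ := Multiset.mem_join.mp hx
    constructor
    · intro hxt
      by_contra hxh
      exact hxt ((hHbin b hbH).1 x hxb hxh).2
    · intro hxh
      omega
  have hFN : PF.join.filter (fun x => ¬ x < t) = ((abs ++ core : List ℕ) : Multiset ℕ) := by
    have h9 := hJN
    rw [hjoinP, Multiset.filter_add, hHN] at h9
    exact add_left_cancel h9
  have hGsplit : PH.join.filter (fun x => x < t) + PF.join.filter (fun x => x < t)
      = (guests : Multiset ℕ) := by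
    rw [← Multiset.filter_add, ← hjoinP, hJG]
  have hGmem : ∀ x ∈ PF.join.filter (fun x => x < t), gmin ≤ x ∧ x ≤ gmax := by
    intro x hx
    have hxg : x ∈ (guests : Multiset ℕ) := by
      rw [← hGsplit]
      exact Multiset.mem_add.mpr (Or.inr hx)
    exact hguest x (by simpa using hxg)
  -- absorbers and core items among the items of size at least `t`
  have eA : ((abs ++ core : List ℕ) : Multiset ℕ).filter (fun x => ¬ x < t2)
      = (abs : Multiset ℕ) := by
    rw [← Multiset.coe_add, Multiset.filter_add]
    have e1 : (abs : Multiset ℕ).filter (fun x => ¬ x < t2) = (abs : Multiset ℕ) := by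
      rw [Multiset.filter_eq_self]
      intro a ha
      have := (habs a (by simpa using ha)).1
      omega
    have e2 : (core : Multiset ℕ).filter (fun x => ¬ x < t2) = 0 := by
      rw [Multiset.filter_eq_nil]
      intro a ha
      have := (hcore a (by simpa using ha)).2
      simp only [not_not]
      omega
    rw [e1, e2, add_zero]
  have eC : ((abs ++ core : List ℕ) : Multiset ℕ).filter (fun x => x < t2)
      = (core : Multiset ℕ) := by
    rw [← Multiset.coe_add, Multiset.filter_add]
    have e1 : (abs : Multiset ℕ).filter (fun x => x < t2) = 0 := by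
      rw [Multiset.filter_eq_nil]
      intro a ha
      have := (habs a (by simpa using ha)).1
      omega
    have e2 : (core : Multiset ℕ).filter (fun x => x < t2) = (core : Multiset ℕ) := by
      rw [Multiset.filter_eq_self]
      intro a ha
      exact (hcore a (by simpa using ha)).2
    rw [e1, e2, zero_add]
  have hFabs : ∀ b ∈ PF, (b.filter (fun x => ¬ x < t)).filter (fun x => ¬ x < t2)
      ≤ (abs : Multiset ℕ) := by
    intro b hbF
    have hle := le_join_of_mem PF b hbF
    have h9 : (b.filter (fun x => ¬ x < t)).filter (fun x => ¬ x < t2)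
        ≤ (PF.join.filter (fun x => ¬ x < t)).filter (fun x => ¬ x < t2) :=
      Multiset.filter_le_filter _ (Multiset.filter_le_filter _ hle)
    rw [hFN, eA] at h9
    exact h9
  -- the bins without a host hold at most `3 * q - j` guests
  have hcnt := free_weight L t t2 gmin W β wg wt wf abs ht0 h0 hchk PF
    (by
      intro b hbF x hx hxt
      have hbP := (Multiset.mem_filter.mp hbF).1
      rcases hmemJ b hbP x hx with h' | h' | h'
      · have := hhost x h'
        omega
      · have := (hdev x h').1
        omega
      · exact (hguest x h').1)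
    (fun b hbF => hb b (Multiset.mem_filter.mp hbF).1) hFabs
  have hwtot : (PF.join.map (wgt t t2 wg wt wf)).sum
      = Multiset.card (PF.join.filter (fun x => x < t)) * wg + (abs.map wf).sum + n * wt := by
    have hsplit : PF.join = PF.join.filter (fun x => x < t)
        + ((abs : Multiset ℕ) + (core : Multiset ℕ)) := by
      conv_lhs => rw [← Multiset.filter_add_not (fun x => x < t) PF.join]
      rw [hFN, ← Multiset.coe_add]
    conv_lhs => rw [hsplit]
    rw [Multiset.map_add, Multiset.map_add, Multiset.sum_add, Multiset.sum_add]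
    have hwG : ((PF.join.filter (fun x => x < t)).map (wgt t t2 wg wt wf)).sum
        = Multiset.card (PF.join.filter (fun x => x < t)) * wg := by
      apply sum_map_of_const
      intro x hx
      have := (Multiset.mem_filter.mp hx).2
      simp [wgt, this]
    have hwA : ((abs : Multiset ℕ).map (wgt t t2 wg wt wf)).sum = (abs.map wf).sum := by
      have hcongr : (abs : Multiset ℕ).map (wgt t t2 wg wt wf) = (abs : Multiset ℕ).map wf := by
        apply Multiset.map_congr rfl
        intro x hx
        have h9 := (habs x (by simpa using hx)).1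
        have h10 : ¬ x < t := by omega
        have h11 : ¬ x < t2 := by omega
        simp [wgt, h10, h11]
      rw [hcongr, Multiset.map_coe, Multiset.sum_coe]
    have hwC : ((core : Multiset ℕ).map (wgt t t2 wg wt wf)).sum = n * wt := by
      rw [sum_map_of_const (core : Multiset ℕ) (wgt t t2 wg wt wf) wt]
      · simp [hn]
      · intro x hx
        have h9 := hcore x (by simpa using hx)
        have h10 : ¬ x < t := by omega
        simp [wgt, h10, h9.2]
    rw [hwG, hwA, hwC]
    ring
  have hTlt := htriples
    (PF.filter (fun b =>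
      Multiset.card ((b.filter (fun x => ¬ x < t)).filter (fun x => x < t2)) = 3
        ∧ Multiset.card (b.filter (fun x => x < t)) = 0
        ∧ Multiset.card ((b.filter (fun x => ¬ x < t)).filter (fun x => ¬ x < t2)) = 0))
    (by
      intro b hbT
      obtain ⟨hbF, hb3, hb0, hbS⟩ := Multiset.mem_filter.mp hbT
      have hc := card_filter_add (fun x => x < t) b
      have hc2 := card_filter_add (fun x => x < t2) (b.filter (fun x => ¬ x < t))
      exact ⟨by omega, hb b (Multiset.mem_filter.mp hbF).1⟩)
    (by
      have hTle : PF.filter (fun b =>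
          Multiset.card ((b.filter (fun x => ¬ x < t)).filter (fun x => x < t2)) = 3
            ∧ Multiset.card (b.filter (fun x => x < t)) = 0
            ∧ Multiset.card ((b.filter (fun x => ¬ x < t)).filter (fun x => ¬ x < t2)) = 0)
          ≤ PF := Multiset.filter_le _ _
      have hmemT : ∀ x ∈ (PF.filter (fun b =>
          Multiset.card ((b.filter (fun x => ¬ x < t)).filter (fun x => x < t2)) = 3
            ∧ Multiset.card (b.filter (fun x => x < t)) = 0
            ∧ Multiset.card ((b.filter (fun x => ¬ x < t)).filter (fun x => ¬ x < t2))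
              = 0)).join, ¬ x < t ∧ x < t2 := by
        intro x hx
        obtain ⟨b, hbT, hxb⟩ := Multiset.mem_join.mp hx
        obtain ⟨_, _, h0', hS'⟩ := Multiset.mem_filter.mp hbT
        have h00 : b.filter (fun x => x < t) = 0 := Multiset.card_eq_zero.mp h0'
        have hS0 : (b.filter (fun x => ¬ x < t)).filter (fun x => ¬ x < t2) = 0 :=
          Multiset.card_eq_zero.mp hS'
        have hxt : ¬ x < t := by
          intro hxt
          have hxm : x ∈ b.filter (fun x => x < t) := Multiset.mem_filter.mpr ⟨hxb, hxt⟩
          rw [h00] at hxm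
          exact absurd hxm (Multiset.notMem_zero x)
        refine ⟨hxt, ?_⟩
        by_contra hx2
        have hxm : x ∈ (b.filter (fun x => ¬ x < t)).filter (fun x => ¬ x < t2) :=
          Multiset.mem_filter.mpr ⟨Multiset.mem_filter.mpr ⟨hxb, hxt⟩, hx2⟩
        rw [hS0] at hxm
        exact absurd hxm (Multiset.notMem_zero x)
      have h9 : ((PF.filter (fun b =>
          Multiset.card ((b.filter (fun x => ¬ x < t)).filter (fun x => x < t2)) = 3
            ∧ Multiset.card (b.filter (fun x => x < t)) = 0
            ∧ Multiset.card ((b.filter (fun x => ¬ x < t)).filter (fun x => ¬ x < t2))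
              = 0)).join.filter (fun x => ¬ x < t)).filter (fun x => x < t2)
          = (PF.filter (fun b =>
          Multiset.card ((b.filter (fun x => ¬ x < t)).filter (fun x => x < t2)) = 3
            ∧ Multiset.card (b.filter (fun x => x < t)) = 0
            ∧ Multiset.card ((b.filter (fun x => ¬ x < t)).filter (fun x => ¬ x < t2))
              = 0)).join := by
        rw [Multiset.filter_eq_self.mpr (fun x hx => (hmemT x hx).1),
          Multiset.filter_eq_self.mpr (fun x hx => (hmemT x hx).2)]
      rw [← h9, ← eC, ← hFN]
      exact Multiset.filter_le_filter _ (Multiset.filter_le_filter _ (join_le_join hTle)))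
  have hSF : Multiset.card (PF.join.filter (fun x => x < t)) + j ≤ 3 * q := by
    rw [hwtot] at hcnt
    have hmul : W * Multiset.card PF ≤ W * r := Nat.mul_le_mul_left W hcardF
    have hmulT := Nat.mul_le_mul_left β (Nat.succ_le_of_lt hTlt)
    rw [Nat.succ_eq_add_one, Nat.mul_add, Nat.mul_one] at hmulT
    by_contra hcon
    have h9 : 3 * q + 1 ≤ Multiset.card (PF.join.filter (fun x => x < t)) + j := by omega
    have h10 := Nat.mul_le_mul_left wg h9
    rw [Nat.mul_add wg (Multiset.card (PF.join.filter (fun x => x < t))) j,
      Nat.mul_comm wg (Multiset.card (PF.join.filter (fun x => x < t)))] at h10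
    omega
  -- the bins with a host, padded to triples
  have hHjoin : PH.join = (hosts : Multiset ℕ) + PH.join.filter (fun x => x < t) := by
    conv_lhs => rw [← Multiset.filter_add_not (fun x => x < t) PH.join]
    rw [hHN, add_comm]
  have hpadH := sum_pad_add_card PH (fun b hbH => (hHbin b hbH).2)
  have hcardHj : Multiset.card PH.join
      = m + Multiset.card (PH.join.filter (fun x => x < t)) := by
    conv_lhs => rw [hHjoin]
    rw [Multiset.card_add]
    simp [hm]
  have hcardG : Multiset.card (PH.join.filter (fun x => x < t))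
      + Multiset.card (PF.join.filter (fun x => x < t)) = guests.length := by
    rw [← Multiset.card_add, hGsplit]
    simp
  obtain ⟨TF, hTF1, hTF2, hTF3⟩ := exists_triples L ph h5 q
    (PF.join.filter (fun x => x < t) + Multiset.replicate j ph
      + Multiset.replicate (3 * q - j - Multiset.card (PF.join.filter (fun x => x < t))) 0)
    (by
      rw [Multiset.card_add, Multiset.card_add, Multiset.card_replicate,
        Multiset.card_replicate]
      omega)
    (by
      intro x hx
      rcases Multiset.mem_add.mp hx with h | h
      · rcases Multiset.mem_add.mp h with h | h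
        · have := (hGmem x h).2
          omega
        · have := Multiset.eq_of_mem_replicate h
          omega
      · have := Multiset.eq_of_mem_replicate h
        omega)
  -- abstract the two multisets of guests
  obtain ⟨SH, hSH⟩ : ∃ SH, SH = PH.join.filter (fun x => x < t) := ⟨_, rfl⟩
  obtain ⟨SF, hSFd⟩ : ∃ SF, SF = PF.join.filter (fun x => x < t) := ⟨_, rfl⟩
  rw [← hSH] at hHjoin hcardHj hcardG hGsplit
  rw [← hSFd] at hTF1 hcardG hGsplit hSF
  have hjoin : (PH.map pad3 + TF).join = ((hosts ++ List.replicate j ph ++ guests
      ++ List.replicate (2 * m + 3 * q - j - guests.length) 0 : List ℕ) : Multiset ℕ) := by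
    rw [Multiset.join_add, join_map_pad3, hTF1]
    have hz : (PH.map (fun b => 3 - Multiset.card b)).sum = 2 * m - Multiset.card SH := by
      omega
    rw [hz, hHjoin, ← Multiset.coe_add, ← Multiset.coe_add, ← Multiset.coe_add,
      Multiset.coe_replicate, Multiset.coe_replicate, ← hGsplit]
    have hrep : Multiset.replicate (2 * m + 3 * q - j - guests.length) 0
        = Multiset.replicate (2 * m - Multiset.card SH) 0
          + Multiset.replicate (3 * q - j - Multiset.card SF) 0 := by
      rw [← Multiset.replicate_add]
      congr 1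
      omega
    rw [hrep]
    abel
  have htrip : ∀ b ∈ PH.map pad3 + TF, Multiset.card b = 3 ∧ b.sum ≤ L := by
    intro b' hb'
    rcases Multiset.mem_add.mp hb' with h | h
    · obtain ⟨b, hbH, rfl⟩ := Multiset.mem_map.mp h
      have h1' := (hHbin b hbH).2
      refine ⟨?_, ?_⟩
      · rw [pad3, Multiset.card_add, Multiset.card_replicate]; omega
      · rw [pad3, Multiset.sum_add, Multiset.sum_replicate]
        simpa using hb b (Multiset.mem_filter.mp hbH).1
    · exact hTF3 b' h
  have hsum : (hosts ++ List.replicate j ph ++ guests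
      ++ List.replicate (2 * m + 3 * q - j - guests.length) 0).sum
      = (hosts ++ List.replicate j ph ++ guests).sum := by
    rw [List.sum_append, List.sum_replicate]; simp
  have h8 := part3_complete L fuel _
    ((m + q) * L - (hosts ++ List.replicate j ph ++ guests).sum) hsorted
    ⟨PH.map pad3 + TF, hjoin, htrip, by
      rw [Multiset.card_add, Multiset.card_map, hcardH, hTF2, hsum]; omega⟩
  rw [hsearch] at h8
  exact Bool.false_ne_true h8

/-- Certificate theorem for instances made of `m` hosts, absorbers, a core of `n` items near a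
third of the bin and guests (see the header); `sol` is a fractional solution (patterns with
weights `numerator / D`). -/
theorem gap_certificate_device (L m r q j k n fuel fuelF hmin t t2 gmin gmax ph W β wg wt D : ℕ)
    (wf : ℕ → ℕ) (hL : 0 < L) (hD : 0 < D) (hosts abs coreBig coreSmall guests : List ℕ)
    (sol : List (List ℕ × ℕ))
    (hhost : ∀ h ∈ hosts, hmin ≤ h ∧ h ≤ L)
    (habs : ∀ f ∈ abs, t2 ≤ f ∧ f < hmin)
    (hcore : ∀ f ∈ coreBig ++ coreSmall, t ≤ f ∧ f < t2)
    (hguest : ∀ g ∈ guests, gmin ≤ g ∧ g ≤ gmax)
    (h0 : 0 < gmin) (htt : t ≤ t2) (ht : t2 ≤ hmin) (hmL : hmin ≤ L)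
    (h1 : L < 2 * hmin) (h2 : L < hmin + t) (h3 : L < hmin + 3 * gmin)
    (h4 : gmax < t) (hph : gmax ≤ ph) (h5 : 3 * ph ≤ L)
    (hchk : ∀ S ∈ abs.sublists, ∀ a ∈ List.range (L / t + 1),
      ∀ g ∈ List.range (L / gmin + 1), S.sum + a * t + g * gmin ≤ L →
        (S.map wf).sum + a * wt + g * wg ≤ W + (if S = [] ∧ a = 3 ∧ g = 0 then β else 0))
    (hm : hosts.length = m) (hn : (coreBig ++ coreSmall).length = n)
    (hcsorted : (coreBig ++ coreSmall).Pairwise (· ≥ ·))
    (hclen : coreSmall.length = 3 * k)
    (hcsearch : part3 L fuelF coreSmall (k * L - coreSmall.sum) = false)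
    (hQ : W * r + β * k + wg * j + 1 ≤ wg * (3 * q + 1) + (abs.map wf).sum + n * wt + β)
    (hj : j ≤ 3 * q)
    (hsorted : (hosts ++ List.replicate j ph ++ guests
      ++ List.replicate (2 * m + 3 * q - j - guests.length) 0).Pairwise (· ≥ ·))
    (hsearch : part3 L fuel
      (hosts ++ List.replicate j ph ++ guests
        ++ List.replicate (2 * m + 3 * q - j - guests.length) 0)
      ((m + q) * L - (hosts ++ List.replicate j ph ++ guests).sum) = false)
    (hcfg : ∀ p ∈ sol,
      (∀ a ∈ p.1, a ∈ hosts ++ (abs ++ (coreBig ++ coreSmall)) ++ guests) ∧ p.1.sum ≤ L)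
    (hcov : ∀ a ∈ hosts ++ (abs ++ (coreBig ++ coreSmall)) ++ guests,
      D * (hosts ++ (abs ++ (coreBig ++ coreSmall)) ++ guests).count a
        ≤ (sol.map (fun p => p.1.count a * p.2)).sum) :
    (∀ x ∈ inst L (singles (hosts ++ (abs ++ (coreBig ++ coreSmall)) ++ guests)),
        0 < x ∧ x ≤ 1) ∧
      ((m : ℝ) + r + 1 - (((sol.map Prod.snd).sum : ℕ) : ℝ) / D
        ≤ (opt (inst L (singles (hosts ++ (abs ++ (coreBig ++ coreSmall)) ++ guests))) : ℝ)
          - lp (inst L (singles (hosts ++ (abs ++ (coreBig ++ coreSmall)) ++ guests)))) := by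
  have hex := expand_singles (hosts ++ (abs ++ (coreBig ++ coreSmall)) ++ guests)
  have hT : ∀ a ∈ expand (singles (hosts ++ (abs ++ (coreBig ++ coreSmall)) ++ guests)),
      0 < a ∧ a ≤ L := by
    intro a ha
    rw [hex] at ha
    have ha' : a ∈ hosts ++ (abs ++ (coreBig ++ coreSmall)) ++ guests := by simpa using ha
    rcases List.mem_append.mp ha' with h | h
    · rcases List.mem_append.mp h with h | h
      · have h6 := hhost a h
        exact ⟨by omega, h6.2⟩
      · rcases List.mem_append.mp h with h | h
        · have h6 := habs a h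
          exact ⟨by omega, by omega⟩
        · have h6 := hcore a h
          exact ⟨by omega, by omega⟩
    · have h6 := hguest a h
      exact ⟨by omega, by omega⟩
  refine ⟨inst_size L hL _ hT, ?_⟩
  have h7 : m + r + 1
      ≤ opt (inst L (singles (hosts ++ (abs ++ (coreBig ++ coreSmall)) ++ guests))) := by
    apply opt_lower_of L (m + r) hL _ hT
    intro P hP hb
    rw [hex] at hP
    exact no_packing_device_aux L m r q j k n fuel hmin t t2 gmin gmax ph W β wg wt wf hosts
      abs (coreBig ++ coreSmall) guests (fun h hh => (hhost h hh).1) habs hcore hguest h0 htt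
      ht h1 h2 h3 h4 hph h5 hchk hm hn
      (fun T hT3 hTle => triple_bins_lt L k fuelF coreBig coreSmall hcsorted hclen hcsearch
        T hT3 hTle)
      hQ hj hsorted hsearch P hP hb
  have h8 := lp_upper L D hL hD
    (singles (hosts ++ (abs ++ (coreBig ++ coreSmall)) ++ guests)) sol
    (by
      intro p hp
      obtain ⟨h9, h10⟩ := hcfg p hp
      refine ⟨fun a ha => ?_, h10⟩
      rw [hex]
      simpa using h9 a ha)
    (by
      intro a ha
      rw [hex] at ha ⊢
      have ha' : a ∈ hosts ++ (abs ++ (coreBig ++ coreSmall)) ++ guests := by simpa using ha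
      simpa using hcov a ha')
  have h9 : ((m : ℝ) + r + 1)
      ≤ (opt (inst L (singles (hosts ++ (abs ++ (coreBig ++ coreSmall)) ++ guests))) : ℝ) := by
    exact_mod_cast h7
  linarith

end Vale.Agent.Lib.P302.H19D
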